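import Mathlib

namespace Vale.Agent.Lib.P037.H20

/-- Number of ordered copies of the `k × k` binary pattern `H` in the `n × n` binary matrix `A`:
pairs of strictly increasing row and column index maps on which `A` agrees with `H`. -/
noncomputable def copyCount {k n : ℕ} (H : Fin k → Fin k → Bool) (A : Fin n → Fin n → Bool) : ℕ :=
  Nat.card {p : (Fin k → Fin n) × (Fin k → Fin n) //
    StrictMono p.1 ∧ StrictMono p.2 ∧ ∀ i j, A (p.1 i) (p.2 j) = H i j}

/-- `A` contains no ordered copy of `H`. -/
def PatternFree {k n : ℕ} (H : Fin k → Fin k → Bool) (A : Fin n → Fin n → Bool) : Prop :=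
  ∀ r c : Fin k → Fin n, StrictMono r → StrictMono c → ¬ ∀ i j, A (r i) (c j) = H i j

/-- Number of entries in which two `n × n` binary matrices differ. -/
noncomputable def diffCount {n : ℕ} (A B : Fin n → Fin n → Bool) : ℕ :=
  Nat.card {p : Fin n × Fin n // A p.1 p.2 ≠ B p.1 p.2}

end Vale.Agent.Lib.P037.H20
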